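import Vale.Agent.P042PH.Vp
import Vale.Agent.P042PA.Defs

/-! P042P, blocks A2 and A3: recurrence with gain, inverse theorem over primes. -/

set_option autoImplicit false
set_option linter.all false

namespace Vale.Agent.P042PH

open Finset Polynomial Vale.Agent.P042 Vale.Agent.P042PA

theorem rec_holds : RecStmt := by
  intro k hk
  obtain ⟨C, hC⟩ := vinoM k hk
  refine ⟨2 * C + 1, by omega, fun γ β σ Q K S hQ hσ h1 h2 hS hc hg => ?_⟩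
  have hQ1 : (1 : ℝ) ≤ Q := by linarith only [hQ]
  have hp : (Q ^ 2) ^ C ≤ Q ^ (2 * C + 1) := by
    rw [← pow_mul]
    exact pow_le_pow_right₀ hQ1 (by omega)
  have hK1 : (1 : ℝ) ≤ K := (one_le_pow₀ hQ1).trans h2
  have hc0 : (0 : ℝ) ≤ Q * S.card := by positivity
  obtain ⟨s, hs1, hs2, hs3⟩ := hC γ β (Q ^ 2) σ (by nlinarith only [hQ]) hσ (K + 1) S
    (fun n hn => Finset.mem_range.2 (Nat.lt_succ_of_le (Finset.mem_Icc.1 (hS hn)).2))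
    (by
      push_cast
      calc (K : ℝ) + 1 ≤ 2 * (Q * S.card) := by linarith only [hK1, hc]
        _ ≤ Q * (Q * S.card) := mul_le_mul_of_nonneg_right hQ hc0
        _ = _ := by ring) hg
    (by push_cast; linarith only [hp, h2])
    ((mul_le_mul_of_nonneg_right hp hσ).trans (by linarith only [h1]))
  refine ⟨s, hs1, hs2.trans hp, le_trans ?_ (hs3.trans (mul_le_mul_of_nonneg_right hp hσ))⟩
  refine mul_le_mul_of_nonneg_left (pow_le_pow_left₀ (by positivity) ?_ _) (nz_nonneg _)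
  push_cast
  linarith only []

/-- the polynomial `g (d (x + 1))` -/
noncomputable def dil (g : ℝ[X]) (d : ℝ) : ℝ[X] := taylor 1 (g.comp (C d * X))

lemma dil_eval (g : ℝ[X]) (d x : ℝ) : (dil g d).eval x = g.eval (d * (x + 1)) := by
  simp [dil, taylor_eval]

lemma dil_deg (g : ℝ[X]) (d : ℝ) (k : ℕ) (hg : g.natDegree ≤ k) : (dil g d).natDegree ≤ k := by
  unfold dil
  rw [natDegree_taylor, natDegree_le_iff_coeff_eq_zero]
  intro N hN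
  rw [comp_C_mul_X_coeff, coeff_eq_zero_of_natDegree_lt (lt_of_le_of_lt hg hN), zero_mul]

lemma dil_coeff (g : ℝ[X]) (d : ℝ) (j : ℕ) (hg : g.natDegree ≤ j + 1) :
    (dil g d).coeff (j + 1) = g.coeff (j + 1) * d ^ (j + 1) := by
  have h0 : (g.comp (C d * X)).natDegree ≤ j + 1 := by
    have := dil_deg g d _ hg
    unfold dil at this
    rwa [natDegree_taylor] at this
  have h1 := coeff_eq_zero_of_natDegree_lt
    (lt_of_le_of_lt (dd_natDegree 1 _ j h0) (Nat.lt_succ_self j))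
  unfold dd at h1
  rw [coeff_sub, sub_eq_zero] at h1
  unfold dil
  rw [h1, comp_C_mul_X_coeff]

lemma sum_Icc_range (F : ℕ → ℂ) (t : ℕ) : ∑ m ∈ Icc 1 t, F m = ∑ m ∈ range t, F (m + 1) := by
  induction t with
  | zero => simp
  | succ t ih => rw [Finset.sum_Icc_succ_top (by omega), Finset.sum_range_succ, ih]

lemma pigeon (B : Finset ℕ) (Z : ℝ) (hZ : 1 ≤ Z) (sf : ℕ → ℕ)
    (h : ∀ n ∈ B, 1 ≤ sf n ∧ (sf n : ℝ) ≤ Z) :
    ∃ s : ℕ, 1 ≤ s ∧ (s : ℝ) ≤ Z ∧ (B.card : ℝ) ≤ Z * (B.filter fun n => sf n = s).card := by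
  have hK1 : 1 ≤ ⌊Z⌋₊ := Nat.le_floor (by simpa using hZ)
  have hKle : (⌊Z⌋₊ : ℝ) ≤ Z := Nat.floor_le (by linarith only [hZ])
  have hK0 : (0 : ℝ) < ⌊Z⌋₊ := by exact_mod_cast hK1
  obtain ⟨s, hsK, hs⟩ := Finset.exists_le_card_fiber_of_nsmul_le_card_of_maps_to
    (b := (B.card : ℝ) / ⌊Z⌋₊) (t := Icc 1 ⌊Z⌋₊) (f := sf) (s := B)
    (fun n hn => Finset.mem_Icc.2 ⟨(h n hn).1, Nat.le_floor (h n hn).2⟩)
    ⟨1, Finset.mem_Icc.2 ⟨le_refl _, hK1⟩⟩ (by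
      rw [Nat.card_Icc, nsmul_eq_mul]
      simp only [Nat.add_sub_cancel]
      rw [mul_div_cancel₀ _ hK0.ne'])
  rw [Finset.mem_Icc] at hsK
  refine ⟨s, hsK.1, le_trans (by exact_mod_cast hsK.2) hKle, ?_⟩
  rw [div_le_iff₀ hK0, mul_comm] at hs
  exact hs.trans (mul_le_mul_of_nonneg_right hKle (Nat.cast_nonneg _))

/-- the statement of `weylA` -/
def WA (j C0 : ℕ) : Prop := ∀ (g : ℝ[X]), g.natDegree ≤ j + 1 → ∀ (Q : ℝ), 2 ≤ Q →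
  ∀ (M L : ℕ), L ≤ M → 1 ≤ M → (M : ℝ) ≤ Q * ‖SS g L‖ →
  ∃ s : ℕ, 1 ≤ s ∧ (s : ℝ) ≤ Q ^ C0 ∧ nz (s * g.coeff (j + 1)) * M ^ (j + 1) ≤ Q ^ C0

lemma wa_use {j C0 : ℕ} (hW : WA j C0) (p : ℝ[X]) (hp : p.natDegree ≤ j + 1) (Z : ℝ)
    (hZ : 2 ≤ Z) (N d t : ℕ) (hd : 1 ≤ d) (hdN : d ≤ N) (ht : d * t ≤ N)
    (h : Z⁻¹ * N / d < ‖SS p t‖) :
    ∃ s : ℕ, 1 ≤ s ∧ (s : ℝ) ≤ Z ^ C0 ∧
      nz (s * p.coeff (j + 1)) * ((N / d : ℕ) : ℝ) ^ (j + 1) ≤ Z ^ C0 := by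
  have hZ0 : 0 < Z := by linarith only [hZ]
  refine hW p hp Z hZ (N / d) t ((Nat.le_div_iff_mul_le hd).2 (by rwa [mul_comm]))
    (Nat.div_pos hdN hd) (Nat.cast_div_le.trans ?_)
  rw [mul_div_assoc, inv_mul_lt_iff₀ hZ0] at h
  exact h.le

lemma le_two_mul_div (N d : ℕ) (hd : 1 ≤ d) (hdN : d ≤ N) :
    (N : ℝ) ≤ 2 * d * ((N / d : ℕ) : ℝ) := by
  have h1 := Nat.lt_mul_div_succ N hd
  have h2 := Nat.div_pos hdN hd
  have h3 : d * (N / d + 1) ≤ 2 * d * (N / d) := by nlinarith only [h2]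
  exact_mod_cast h1.le.trans h3

/-- type I -/
lemma typeI {j C0 : ℕ} (hW : WA j C0) (g : ℝ[X]) (hg : g.natDegree ≤ j + 1) (Q : ℝ) (hQ : 2 ≤ Q)
    (a N d t : ℕ) (hd : 1 ≤ d) (hdN : d ≤ N) (hda : (d : ℝ) ≤ Q ^ a) (ht : d * t ≤ N)
    (h : (Q ^ 20)⁻¹ * N / d < ‖∑ m ∈ Icc 1 t, ee (g.eval ((d * m : ℕ) : ℝ))‖) :
    ∃ s : ℕ, 1 ≤ s ∧ (s : ℝ) ≤ Q ^ (20 * C0 + (a + 1) * (j + 1)) ∧
      nz (s * g.coeff (j + 1)) * (N : ℝ) ^ (j + 1) ≤ Q ^ (20 * C0 + (a + 1) * (j + 1)) := by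
  have hQ1 : (1 : ℝ) ≤ Q := by linarith only [hQ]
  have e : ∑ m ∈ Icc 1 t, ee (g.eval ((d * m : ℕ) : ℝ)) = SS (dil g d) t := by
    rw [sum_Icc_range]
    refine Finset.sum_congr rfl fun m _ => ?_
    rw [dil_eval]
    push_cast
    rfl
  rw [e] at h
  obtain ⟨s, hs1, hs2, hs3⟩ := wa_use hW _ (dil_deg g d _ hg) (Q ^ 20)
    (hQ.trans (le_self_pow₀ hQ1 (by norm_num))) N d t hd hdN ht h
  rw [← pow_mul] at hs2 hs3
  rw [dil_coeff _ _ _ hg] at hs3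
  have h2d : 2 * (d : ℝ) ≤ Q ^ (a + 1) := by
    rw [pow_succ']
    exact mul_le_mul hQ hda (Nat.cast_nonneg _) (by positivity)
  have h2 : (2 * (d : ℝ)) ^ (j + 1) ≤ Q ^ ((a + 1) * (j + 1)) := by
    rw [pow_mul]
    exact pow_le_pow_left₀ (by positivity) h2d _
  have hd0 : (0 : ℝ) ≤ d := Nat.cast_nonneg _
  refine ⟨s * d ^ (j + 1), Nat.mul_pos hs1 (Nat.pow_pos hd), ?_, ?_⟩
  · push_cast
    rw [pow_add Q]
    exact mul_le_mul hs2 ((pow_le_pow_left₀ hd0 (by linarith only [hd0]) _).trans h2)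
      (by positivity) (by positivity)
  · have e1 : ((s * d ^ (j + 1) : ℕ) : ℝ) * g.coeff (j + 1) =
        s * (g.coeff (j + 1) * (d : ℝ) ^ (j + 1)) := by
      push_cast
      ring
    rw [e1, pow_add Q]
    refine (mul_le_mul_of_nonneg_left (pow_le_pow_left₀ (Nat.cast_nonneg _)
      (le_two_mul_div N d hd hdN) _) (nz_nonneg _)).trans ?_
    rw [mul_pow, mul_comm ((2 * (d : ℝ)) ^ (j + 1)), ← mul_assoc]
    exact mul_le_mul hs3 h2 (by positivity) (by positivity)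

/-- the statement of the recurrence lemma -/
def RC (k E : ℕ) : Prop := ∀ (γ β σ Q : ℝ) (K : ℕ) (S : Finset ℕ), 2 ≤ Q → 0 ≤ σ →
  σ * Q ^ E ≤ 1 → Q ^ E ≤ (K : ℝ) → S ⊆ Icc 1 K → (K : ℝ) ≤ Q * S.card →
  (∀ n ∈ S, nz (γ * (n : ℝ) ^ k - β) ≤ σ) →
  ∃ q : ℕ, 1 ≤ q ∧ (q : ℝ) ≤ Q ^ E ∧ nz (q * γ) * (K : ℝ) ^ k ≤ Q ^ E * σ

/-- type II, one pair -/
lemma pairII {j C0 : ℕ} (hW : WA j C0) (g : ℝ[X]) (hg : g.natDegree ≤ j + 1) (Z : ℝ)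
    (hZ : 2 ≤ Z) (N n n' t : ℕ) (hn : 1 ≤ n) (hnN : n ≤ N) (ht : n * t ≤ N)
    (h : Z⁻¹ * N / n < ‖∑ m ∈ Icc 1 t, ee (g.eval ((m * n : ℕ) : ℝ)) *
      (starRingEnd ℂ) (ee (g.eval ((m * n' : ℕ) : ℝ)))‖) :
    ∃ s : ℕ, 1 ≤ s ∧ (s : ℝ) ≤ Z ^ C0 ∧
      nz (s * g.coeff (j + 1) * (n' : ℝ) ^ (j + 1) - s * g.coeff (j + 1) * (n : ℝ) ^ (j + 1)) *
        ((N / n : ℕ) : ℝ) ^ (j + 1) ≤ Z ^ C0 := by
  have e : ∑ m ∈ Icc 1 t, ee (g.eval ((m * n : ℕ) : ℝ)) *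
      (starRingEnd ℂ) (ee (g.eval ((m * n' : ℕ) : ℝ))) = SS (dil g n - dil g n') t := by
    rw [sum_Icc_range]
    refine Finset.sum_congr rfl fun m _ => ?_
    rw [eval_sub, dil_eval, dil_eval, ee_sub]
    push_cast
    rw [mul_comm ((m : ℝ) + 1), mul_comm ((m : ℝ) + 1)]
  rw [e] at h
  obtain ⟨s, hs1, hs2, hs3⟩ := wa_use hW _ ((natDegree_sub_le _ _).trans
    (max_le (dil_deg g n _ hg) (dil_deg g n' _ hg))) Z hZ N n t hn hnN ht h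
  refine ⟨s, hs1, hs2, ?_⟩
  rw [coeff_sub, dil_coeff _ _ _ hg, dil_coeff _ _ _ hg, ← nz_neg] at hs3
  rw [show (s : ℝ) * g.coeff (j + 1) * (n' : ℝ) ^ (j + 1) - s * g.coeff (j + 1) *
    (n : ℝ) ^ (j + 1) = -(s * (g.coeff (j + 1) * (n : ℝ) ^ (j + 1) -
      g.coeff (j + 1) * (n' : ℝ) ^ (j + 1))) by ring]
  exact hs3

/-- type II -/
lemma typeII {j C0 E1 : ℕ} (hR : RC (j + 1) E1) (x Q : ℝ) (hQ : 2 ≤ Q) (N U n : ℕ)
    (hU : Q ^ (20 * C0 + (20 + 20 * C0) * E1) ≤ U) (hn : U < n) (hnU : n * U ≤ N)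
    (B : Finset ℕ) (hB : B ⊆ Icc 1 n) (hc : (Q ^ 20)⁻¹ * n < B.card)
    (h : ∀ n' ∈ B, ∃ s : ℕ, 1 ≤ s ∧ (s : ℝ) ≤ (Q ^ 20) ^ C0 ∧
      nz (s * x * (n' : ℝ) ^ (j + 1) - s * x * (n : ℝ) ^ (j + 1)) *
        ((N / n : ℕ) : ℝ) ^ (j + 1) ≤ (Q ^ 20) ^ C0) :
    ∃ s : ℕ, 1 ≤ s ∧ (s : ℝ) ≤ Q ^ (20 * C0 + (20 + 20 * C0) * E1 + (j + 1)) ∧
      nz (s * x) * (N : ℝ) ^ (j + 1) ≤ Q ^ (20 * C0 + (20 + 20 * C0) * E1 + (j + 1)) := by
  have hQ1 : (1 : ℝ) ≤ Q := by linarith only [hQ]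
  have hQ0 : (0 : ℝ) < Q := by linarith only [hQ]
  have powle : ∀ {x y : ℕ}, x ≤ y → Q ^ x ≤ Q ^ y := fun h => pow_le_pow_right₀ hQ1 h
  rw [← pow_mul] at h
  choose! sf hsf using h
  obtain ⟨s, hs1, hs2, hs3⟩ := pigeon B _ (one_le_pow₀ hQ1) sf
    fun n' hn' => ⟨(hsf n' hn').1, (hsf n' hn').2.1⟩
  have hU1 : 1 ≤ U := by exact_mod_cast (one_le_pow₀ hQ1).trans hU
  have hn1 : 1 ≤ n := by omega
  have hnN : n ≤ N := (Nat.le_mul_of_pos_right n hU1).trans hnU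
  have hUM : U ≤ N / n := (Nat.le_div_iff_mul_le hn1).2 (by rwa [mul_comm])
  set M : ℝ := ((N / n : ℕ) : ℝ) with hM
  have hUM' : (U : ℝ) ≤ M := Nat.cast_le.2 hUM
  have hM1 : 1 ≤ M := le_trans (by exact_mod_cast hU1) hUM'
  have hMk : M ≤ M ^ (j + 1) := le_self_pow₀ hM1 (by omega)
  have hMp : 0 < M ^ (j + 1) := by positivity
  obtain ⟨q, hq1, hq2, hq3⟩ := hR (s * x) (s * x * (n : ℝ) ^ (j + 1))
    (Q ^ (20 * C0) / M ^ (j + 1)) (Q ^ (20 + 20 * C0)) n (B.filter fun n' => sf n' = s)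
    (hQ.trans (le_self_pow₀ hQ1 (by omega))) (by positivity)
    (by
      rw [div_mul_eq_mul_div, div_le_one hMp, ← pow_mul, ← pow_add]
      exact hU.trans (hUM'.trans hMk))
    (by
      rw [← pow_mul]
      exact (powle (by omega)).trans (hU.trans (by exact_mod_cast hn.le)))
    ((Finset.filter_subset _ _).trans hB)
    (by
      rw [inv_mul_lt_iff₀ (by positivity)] at hc
      rw [pow_add, mul_assoc]
      exact hc.le.trans (mul_le_mul_of_nonneg_left hs3 (by positivity)))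
    (fun n' hn' => by
      rw [Finset.mem_filter] at hn'
      have := (hsf n' hn'.1).2.2
      rw [hn'.2] at this
      rwa [le_div_iff₀ hMp])
  rw [← pow_mul] at hq2 hq3
  refine ⟨q * s, Nat.mul_pos hq1 hs1, ?_, ?_⟩
  · push_cast
    refine (mul_le_mul hq2 hs2 (Nat.cast_nonneg _) (by positivity)).trans ?_
    rw [← pow_add]
    exact powle (by omega)
  · rw [← mul_div_assoc, le_div_iff₀ hMp, ← pow_add] at hq3
    have e1 : ((q * s : ℕ) : ℝ) * x = q * (s * x) := by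
      push_cast
      ring
    rw [e1]
    refine (mul_le_mul_of_nonneg_left (pow_le_pow_left₀ (Nat.cast_nonneg _)
      (le_two_mul_div N n hn1 hnN) _) (nz_nonneg _)).trans ?_
    rw [← hM, mul_pow, mul_pow, pow_add Q _ (j + 1), add_comm (20 * C0)]
    calc nz (q * (s * x)) * (2 ^ (j + 1) * (n : ℝ) ^ (j + 1) * M ^ (j + 1)) =
          nz (q * (s * x)) * (n : ℝ) ^ (j + 1) * M ^ (j + 1) * 2 ^ (j + 1) := by ring
      _ ≤ _ := mul_le_mul hq3 (pow_le_pow_left₀ (by norm_num) hQ _) (by positivity)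
          (by positivity)

lemma vp_num (Q N U L S : ℝ) (hQ : 2 ≤ Q) (hN : 0 < N) (hL0 : 0 ≤ L) (hL : L ≤ Q) (hU0 : 0 ≤ U)
    (hU : Q ^ 10 * U ≤ N) (h1 : N ≤ Q * S)
    (h2 : S ≤ 10 * (1 + L) ^ 2 * (Real.sqrt (Q ^ 20)⁻¹ * N + U)) : False := by
  have hQ0 : 0 < Q := by linarith only [hQ]
  have e : Real.sqrt (Q ^ 20)⁻¹ = (Q ^ 10)⁻¹ := by
    rw [show (Q ^ 20)⁻¹ = ((Q ^ 10)⁻¹) ^ 2 by rw [inv_pow, ← pow_mul]]
    exact Real.sqrt_sq (by positivity)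
  rw [e] at h2
  have h3 : U ≤ (Q ^ 10)⁻¹ * N := by rwa [le_inv_mul_iff₀ (by positivity)]
  have h4 : (1 + L) ^ 2 ≤ (2 * Q) ^ 2 :=
    pow_le_pow_left₀ (by linarith only [hL0]) (by linarith only [hL, hQ]) 2
  have h5 : S ≤ 10 * (2 * Q) ^ 2 * (2 * ((Q ^ 10)⁻¹ * N)) := by
    refine h2.trans (mul_le_mul (by linarith only [h4]) (by linarith only [h3]) ?_ ?_) <;>
      positivity
  have h6 := h1.trans (mul_le_mul_of_nonneg_left h5 hQ0.le)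
  have e2 : Q * (10 * (2 * Q) ^ 2 * (2 * ((Q ^ 10)⁻¹ * N))) = 80 * N / Q ^ 7 := by
    field_simp
    ring
  rw [e2, le_div_iff₀ (by positivity)] at h6
  have h7 : (2 : ℝ) ^ 7 ≤ Q ^ 7 := pow_le_pow_left₀ (by norm_num) hQ 7
  have h8 := mul_le_mul_of_nonneg_left h7 hN.le
  linarith only [h6, h8, hN]

theorem vp_of (hV : VauStmt) (hR : RecStmt) : VpStmt := by
  classical
  intro k hk
  obtain ⟨j, rfl⟩ : ∃ j, k = j + 1 := ⟨k - 1, by omega⟩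
  obtain ⟨C0, hW⟩ := weylA j
  obtain ⟨E1, -, hR⟩ := hR (j + 1) hk
  obtain ⟨A, hA⟩ : ∃ A, A = 20 * C0 + (20 + 20 * C0) * E1 := ⟨_, rfl⟩
  obtain ⟨T, hT⟩ : ∃ T, T = (2 * A + 2 + 1) * (j + 1) := ⟨_, rfl⟩
  refine ⟨20 * C0 + T + 2 * A + j + 11, by omega, fun g Q N hg hQ hlog hN hS => ?_⟩
  by_contra hcon
  have hQ1 : (1 : ℝ) ≤ Q := by linarith only [hQ]
  have hQ0 : (0 : ℝ) < Q := by linarith only [hQ]
  have powle : ∀ {x y : ℕ}, x ≤ y → Q ^ x ≤ Q ^ y := fun h => pow_le_pow_right₀ hQ1 h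
  have hno : ∀ x : ℕ, x ≤ 20 * C0 + T + 2 * A + j + 11 → ¬ ∃ s : ℕ, 1 ≤ s ∧ (s : ℝ) ≤ Q ^ x ∧
      nz (s * g.coeff (j + 1)) * (N : ℝ) ^ (j + 1) ≤ Q ^ x := by
    rintro x hx ⟨s, h1, h2, h3⟩
    exact hcon ⟨s, h1, h2.trans (powle hx), h3.trans (powle hx)⟩
  obtain ⟨U, hUA, hUB⟩ : ∃ U : ℕ, Q ^ A ≤ U ∧ (U : ℝ) ≤ Q ^ (A + 1) := by
    refine ⟨⌈Q ^ A⌉₊, Nat.le_ceil _, (Nat.ceil_lt_add_one (by positivity)).le.trans ?_⟩
    have h1 : (1 : ℝ) ≤ Q ^ A := one_le_pow₀ hQ1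
    have h2 := mul_le_mul_of_nonneg_left hQ (show 0 ≤ Q ^ A by positivity)
    rw [pow_succ]
    linarith only [h1, h2]
  have hU1 : 1 ≤ U := by exact_mod_cast (one_le_pow₀ hQ1).trans hUA
  have hU2 : (U : ℝ) ^ 2 ≤ Q ^ (2 * A + 2) := by
    refine (pow_le_pow_left₀ (Nat.cast_nonneg _) hUB 2).trans (le_of_eq ?_)
    rw [← pow_mul]
    congr 1
    ring
  have hU2N : U ^ 2 ≤ N := by exact_mod_cast hU2.trans ((powle (by omega)).trans hN)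
  have hZ : (2 : ℝ) ≤ Q ^ 20 := hQ.trans (le_self_pow₀ hQ1 (by norm_num))
  have hb := hV (fun n => ee (g.eval (n : ℝ))) N U (Q ^ 20)⁻¹ (fun n => (norm_ee _).le) hU1 hU2N
    (by positivity) (inv_le_one_of_one_le₀ (one_le_pow₀ hQ1))
    (fun d t hd hdU hdt => by
      by_contra hh
      refine hno _ ?_ (typeI hW g hg Q hQ (2 * A + 2) N d t hd (hdU.trans hU2N)
        (le_trans (by exact_mod_cast hdU) hU2) hdt (not_le.1 hh))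
      omega)
    (fun n hn hnU => by
      refine ⟨(Icc 1 n).filter fun n' => ∃ t : ℕ, n * t ≤ N ∧ (Q ^ 20)⁻¹ * N / n <
        ‖∑ m ∈ Icc 1 t, ee (g.eval ((m * n : ℕ) : ℝ)) *
          (starRingEnd ℂ) (ee (g.eval ((m * n' : ℕ) : ℝ)))‖, ?_, fun n' t h1 h2 h3 h4 => ?_⟩
      · by_contra hh
        refine hno _ ?_ (typeII (C0 := C0) hR (g.coeff (j + 1)) Q hQ N U n (hA ▸ hUA) hn hnU _
          (Finset.filter_subset _ _) (not_le.1 hh) fun n' hn' => ?_)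
        · omega
        · obtain ⟨t, ht, hlt⟩ := (Finset.mem_filter.1 hn').2
          exact pairII hW g hg _ hZ N n n' t (by omega)
            ((Nat.le_mul_of_pos_right n hU1).trans hnU) ht hlt
      · by_contra hh
        exact h3 (Finset.mem_filter.2 ⟨Finset.mem_Icc.2 ⟨h1, h2⟩, t, h4, not_le.1 hh⟩))
  refine vp_num Q N U (Real.log N) _ hQ (lt_of_lt_of_le (by positivity) hN)
    (Real.log_natCast_nonneg N) hlog (Nat.cast_nonneg _) ?_ hS hb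
  refine (mul_le_mul_of_nonneg_left hUB (by positivity)).trans ?_
  rw [← pow_add]
  exact (powle (by omega)).trans hN

end Vale.Agent.P042PH
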