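import Vale.Agent.P042PH.Fou

/-! P042P: the circle method over primes from the pointwise claim. -/

set_option autoImplicit false
set_option linter.all false

namespace Vale.Agent.P042PH

open Polynomial Finset Vale.Agent.P042 Vale.Agent.P042.SS Vale.Agent.P042PA

theorem anP_of (hP : PointPStmt) : AnPStmt := by
  intro k hk
  obtain ⟨E, K, hE, hK, hP⟩ := hP k hk
  refine ⟨E, 16 * K, hE, by linarith only [hK], ?_⟩
  intro f u v N' H Q δ B G hdeg hlead hδ hδ1 hB hcoef hu hv hvB hg hlog h8 h16 hQ hN hsupp hfree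
  have hK0 : 0 < K := by linarith only [hK]
  have hB0 : 0 < B := by linarith only [hB]
  have hQ0 : (0 : ℝ) < Q := lt_of_lt_of_le (by positivity) hQ
  have hN0 : (0 : ℝ) < N' := lt_of_lt_of_le (by positivity) hN
  have hN1 : 0 < N' := by exact_mod_cast hN0
  have hH : 1 ≤ H := by omega
  have hQ' : (K * B / δ) ^ E ≤ (Q : ℝ) := by
    refine le_trans (pow_le_pow_left₀ (by positivity) ?_ _) hQ
    gcongr
    linarith only [hK0]
  have hH' : (K * B * Q / δ) ^ E ≤ (H : ℝ) := by
    have e : (16 * K * B * Q / δ) ^ E = 16 ^ E * (K * B * Q / δ) ^ E := by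
      rw [← mul_pow]
      congr 1
      ring
    have h1 : (16 : ℝ) ≤ 16 ^ E := le_self_pow₀ (by norm_num) (by omega)
    have h2 : (N' : ℝ) ≤ 16 * H := by exact_mod_cast h16
    have h3 := mul_le_mul_of_nonneg_right h1 (show 0 ≤ (K * B * Q / δ) ^ E by positivity)
    rw [e] at hN
    linarith only [hN, h2, h3]
  have hlogH : Real.log H ≤ B := by
    refine le_trans (Real.log_le_log (by exact_mod_cast hH) ?_) hlog
    exact_mod_cast (by omega : H ≤ N')
  obtain ⟨x0, X, hx0, hpt⟩ := hP f u v H Q δ B hdeg hlead hδ hδ1 hB hcoef hu hv hvB hg hlogH hQ' hH'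
  exact fouP_holds f u v N' H Q x0 X (fun a q => GamL f u v a q) δ G hH h8 hx0 hδ.le hsupp hfree
    hpt

end Vale.Agent.P042PH
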