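import Vale.Agent.P042PH.An
import Vale.Agent.P042PU.Un
import Vale.Agent.P042.H74.AnX

/-! P042P: the circle method over primes with sieve weights, abstract form. -/

set_option autoImplicit false
set_option linter.all false

namespace Vale.Agent.P042PH

open Polynomial Finset Vale.Agent.P042 Vale.Agent.P042.SS Vale.Agent.P042PA
open Vale.Agent.P042.H74 (fer fer_eval fer_natDegree fer_lead fer_coeff_le ZS bil_sum)

lemma card_small (PP : Finset ℕ) (hPP : ∀ p ∈ PP, p.Prime) (E0 : ℕ) :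
    (PP.powerset.filter (fun S => ¬ E0 < ∏ p ∈ S, p)).card ≤ E0 := by
  have hc : (PP.powerset.filter (fun S => ¬ E0 < ∏ p ∈ S, p)).card ≤ (Icc 1 E0).card := by
    apply card_le_card_of_injOn (fun S => ∏ p ∈ S, p)
    · intro S hS
      rw [mem_coe, mem_filter, mem_powerset] at hS
      rw [mem_coe, mem_Icc]
      exact ⟨prod_pos fun p hp => (hPP p (hS.1 hp)).pos, not_lt.1 hS.2⟩
    · intro S hS T hT hST
      rw [mem_coe, mem_filter, mem_powerset] at hS hT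
      have h1 := Nat.primeFactors_prod (fun p hp => hPP p (hS.1 hp))
      have h2 := Nat.primeFactors_prod (fun p hp => hPP p (hT.1 hp))
      simp only at hST
      rw [← h1, ← h2, hST]
  rw [Nat.card_Icc] at hc
  omega

/-- summation of the inclusion-exclusion -/
lemma ie_sum (f : ℤ[X]) (PP : Finset ℕ) (hPP : ∀ p ∈ PP, p.Prime) (E0 : ℕ) (δ X : ℝ)
    (hδ : 0 ≤ δ) (hX : 0 ≤ X) (w : Finset ℕ → ℕ → ℝ) (T : Finset ℕ → ℕ → ℂ)
    (hw : ∀ S ∈ PP.powerset, ∀ r ∈ ZS f S, |w S r| ≤ 1 / ((∏ p ∈ S, p : ℕ) : ℝ))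
    (k1 : ∀ S ∈ PP.powerset, ∀ r ∈ ZS f S, w S r ≠ 0 → ∏ p ∈ S, p ≤ E0 → ‖T S r‖ ≤ δ * X)
    (k2 : ∀ S ∈ PP.powerset, ∀ r ∈ ZS f S, w S r ≠ 0 → ‖T S r‖ ≤ 2 * X) :
    ‖∑ S ∈ PP.powerset, ∑ r ∈ ZS f S, (w S r : ℂ) * T S r‖ ≤
      (E0 * δ + 2 * ∑ S ∈ PP.powerset.filter (fun S => E0 < ∏ p ∈ S, p),
        ((ZS f S).card : ℝ) / ((∏ p ∈ S, p : ℕ) : ℝ)) * X := by
  have hone : ∀ S ∈ PP.powerset, ∀ r ∈ ZS f S, ∀ Y : ℝ, 0 ≤ Y → (w S r ≠ 0 → ‖T S r‖ ≤ Y) →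
      ‖(w S r : ℂ) * T S r‖ ≤ 1 / ((∏ p ∈ S, p : ℕ) : ℝ) * Y := by
    intro S hS r hr Y hY h
    by_cases h0 : w S r = 0
    · rw [h0, Complex.ofReal_zero, zero_mul, norm_zero]
      positivity
    · rw [norm_mul, Complex.norm_real, Real.norm_eq_abs]
      exact mul_le_mul (hw S hS r hr) (h h0) (norm_nonneg _) (by positivity)
  have hbd : ∀ S ∈ PP.powerset, ‖∑ r ∈ ZS f S, (w S r : ℂ) * T S r‖ ≤
      (if E0 < ∏ p ∈ S, p then 2 * (((ZS f S).card : ℝ) / ((∏ p ∈ S, p : ℕ) : ℝ)) else δ) * X := by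
    intro S hS
    have hm : 0 < ∏ p ∈ S, p := prod_pos fun p hp => (hPP p (mem_powerset.1 hS hp)).pos
    have hmr : (0 : ℝ) < ((∏ p ∈ S, p : ℕ) : ℝ) := by exact_mod_cast hm
    refine (norm_sum_le _ _).trans ?_
    split_ifs with hSE
    · refine (sum_le_card_nsmul _ _ (1 / ((∏ p ∈ S, p : ℕ) : ℝ) * (2 * X)) fun r hr =>
        hone S hS r hr _ (by positivity) (k2 S hS r hr)).trans (le_of_eq ?_)
      rw [nsmul_eq_mul]
      ring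
    · refine (sum_le_card_nsmul _ _ (1 / ((∏ p ∈ S, p : ℕ) : ℝ) * (δ * X)) fun r hr =>
        hone S hS r hr _ (by positivity) fun h => k1 S hS r hr h (by omega)).trans ?_
      rw [nsmul_eq_mul]
      have hcard : ((ZS f S).card : ℝ) ≤ ((∏ p ∈ S, p : ℕ) : ℝ) := by
        have : (ZS f S).card ≤ ∏ p ∈ S, p := by
          unfold ZS
          exact (card_filter_le _ _).trans (by rw [card_range])
        exact_mod_cast this
      calc ((ZS f S).card : ℝ) * (1 / ((∏ p ∈ S, p : ℕ) : ℝ) * (δ * X))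
          ≤ ((∏ p ∈ S, p : ℕ) : ℝ) * (1 / ((∏ p ∈ S, p : ℕ) : ℝ) * (δ * X)) :=
            mul_le_mul_of_nonneg_right hcard (by positivity)
        _ = δ * X := by field_simp
  refine (norm_sum_le _ _).trans ((sum_le_sum hbd).trans ?_)
  rw [← sum_mul]
  refine mul_le_mul_of_nonneg_right ?_ hX
  rw [← sum_filter_add_sum_filter_not PP.powerset (fun S => E0 < ∏ p ∈ S, p)]
  have e1 : ∑ S ∈ PP.powerset.filter (fun S => E0 < ∏ p ∈ S, p),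
      (if E0 < ∏ p ∈ S, p then 2 * (((ZS f S).card : ℝ) / ((∏ p ∈ S, p : ℕ) : ℝ)) else δ) =
      2 * ∑ S ∈ PP.powerset.filter (fun S => E0 < ∏ p ∈ S, p),
        ((ZS f S).card : ℝ) / ((∏ p ∈ S, p : ℕ) : ℝ) := by
    rw [mul_sum]
    exact sum_congr rfl fun S hS => if_pos (mem_filter.1 hS).2
  have e2 : ∑ S ∈ PP.powerset.filter (fun S => ¬ E0 < ∏ p ∈ S, p),
      (if E0 < ∏ p ∈ S, p then 2 * (((ZS f S).card : ℝ) / ((∏ p ∈ S, p : ℕ) : ℝ)) else δ) ≤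
      E0 * δ := by
    rw [sum_congr rfl fun S hS => if_neg (mem_filter.1 hS).2, sum_const, nsmul_eq_mul]
    exact mul_le_mul_of_nonneg_right (by exact_mod_cast card_small PP hPP E0) hδ
  rw [e1]
  linarith only [e2]

lemma swap4 (A : Finset ℕ) (Bq : ℕ → Finset ℕ) (P : Finset (Finset ℕ)) (Z : Finset ℕ → Finset ℕ)
    (w : Finset ℕ → ℕ → ℂ) (g : Finset ℕ → ℕ → ℕ → ℕ → ℂ) (b c : ℕ → ℕ → ℂ)
    (h : ∀ q ∈ A, ∀ a, c a q = ∑ S ∈ P, ∑ r ∈ Z S, w S r * g S r a q) :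
    ∑ q ∈ A, ∑ a ∈ Bq q, c a q * b a q =
      ∑ S ∈ P, ∑ r ∈ Z S, w S r * ∑ q ∈ A, ∑ a ∈ Bq q, g S r a q * b a q := by
  have h1 : ∀ q ∈ A, ∀ a ∈ Bq q, c a q * b a q =
      ∑ S ∈ P, ∑ r ∈ Z S, w S r * (g S r a q * b a q) := by
    intro q hq a _
    rw [h q hq a, sum_mul]
    refine sum_congr rfl fun S _ => ?_
    rw [sum_mul]
    exact sum_congr rfl fun r _ => by ring
  rw [sum_congr rfl fun q hq => sum_congr rfl fun a ha => h1 q hq a ha]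
  rw [sum_congr rfl fun q _ => sum_comm]
  rw [sum_comm]
  refine sum_congr rfl fun S _ => ?_
  rw [sum_congr rfl fun q _ => sum_comm]
  rw [sum_comm]
  refine sum_congr rfl fun r _ => ?_
  rw [mul_sum]
  refine sum_congr rfl fun q _ => ?_
  rw [mul_sum]

/-- **circle method over primes with sieve weights**, for any kernel `c` with an expansion -/
theorem anW_abs (hA : AnPStmt) (k : ℕ) (hk : 2 ≤ k) : ∃ (E : ℕ) (K : ℝ), 1 ≤ E ∧ 1 ≤ K ∧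
    ∀ (f : ℤ[X]) (u : ℤ) (v : ℕ) (PP : Finset ℕ) (c : ℕ → ℕ → ℂ) (w : Finset ℕ → ℕ → ℝ)
      (N' H Q E0 : ℕ) (δ B : ℝ) (G : ℤ → ℝ),
    f.natDegree = k → 0 < f.leadingCoeff → 0 < δ → δ ≤ 1 → 1 ≤ B →
    (∀ j : ℕ, |(f.coeff j : ℝ)| ≤ B) → |(u : ℝ)| ≤ B → 1 ≤ v → (v : ℝ) ≤ B →
    Real.log N' ≤ B → (∀ p ∈ PP, p.Prime) → 1 ≤ E0 → 8 * H ≤ N' → N' ≤ 16 * H →
    (K * B * (E0 : ℝ) ^ (2 * k + 1) / δ) ^ E ≤ (Q : ℝ) →
    (K * B * (E0 : ℝ) ^ (2 * k + 1) * Q / δ) ^ E ≤ (N' : ℝ) → (Q : ℝ) ^ 4 ≤ H →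
    (∀ n, G n ≠ 0 → 1 ≤ n ∧ n ≤ N') →
    (∀ n m : ℤ, G n ≠ 0 → G m ≠ 0 → ∀ x : ℕ, 1 ≤ x → PrL u v x →
      n - m = f.eval (x : ℤ) → n = m) →
    (∀ S ∈ PP.powerset, ∀ r ∈ ZS f S, |w S r| ≤ 1 / ((∏ p ∈ S, p : ℕ) : ℝ)) →
    (∀ S ∈ PP.powerset, ∀ r ∈ ZS f S, w S r ≠ 0 →
      Int.gcd (u + v * r) ((v * ∏ p ∈ S, p : ℕ) : ℤ) = 1) →
    (∀ q : ℕ, 1 ≤ q → ∀ a : ℕ, c a q = ∑ S ∈ PP.powerset, ∑ r ∈ ZS f S, (w S r : ℂ) *
      GamL (fer f (∏ p ∈ S, p) (r : ℤ)) (u + v * r) (v * ∏ p ∈ S, p) a q) →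
    ‖∑ q ∈ Icc 1 Q, ∑ a ∈ (range q).filter (Nat.Coprime q),
      c a q * Bil G N' H ((a : ℝ) / q)‖ ≤
      (E0 * δ + 2 * ∑ S ∈ PP.powerset.filter (fun S => E0 < ∏ p ∈ S, p),
        ((ZS f S).card : ℝ) / ((∏ p ∈ S, p : ℕ) : ℝ)) *
        ((H : ℝ) ^ 2 * ∑ n ∈ Icc (1 : ℤ) N', G n ^ 2) := by
  obtain ⟨E, K, hE, hK, hAN⟩ := hA k hk
  obtain ⟨C1, hC1⟩ : ∃ C1 : ℝ, C1 = ((k + 1 : ℕ) : ℝ) * 2 ^ k := ⟨_, rfl⟩
  have hC2 : 2 ≤ C1 := by
    have h1 : (2 : ℝ) ≤ ((k + 1 : ℕ) : ℝ) := by exact_mod_cast (by omega : 2 ≤ k + 1)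
    have h2 : (1 : ℝ) ≤ 2 ^ k := one_le_pow₀ (by norm_num)
    rw [hC1]
    nlinarith only [h1, h2]
  refine ⟨E, K * C1, hE, by nlinarith only [hK, hC2], ?_⟩
  intro f u v PP c w N' H Q E0 δ B G hdeg hlead hδ hδ1 hB hcoef hu hv hvB hlog hPP hE0 h8 h16 hQ
    hN hQH hGs hfree hw hcop hexp
  have hE0r : (1 : ℝ) ≤ E0 := by exact_mod_cast hE0
  have hK0 : 0 < K := by linarith only [hK]
  have hB0 : 0 < B := by linarith only [hB]
  have hC0 : 0 < C1 := by linarith only [hC2]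
  have hQ1 : 1 ≤ Q := by
    have : (0 : ℝ) < Q := lt_of_lt_of_le (by positivity) hQ
    exact_mod_cast this
  have hX0 : 0 ≤ (H : ℝ) ^ 2 * ∑ n ∈ Icc (1 : ℤ) N', G n ^ 2 :=
    mul_nonneg (sq_nonneg _) (sum_nonneg fun _ _ => sq_nonneg _)
  obtain ⟨B', hB'⟩ : ∃ B' : ℝ, B' = C1 * (E0 : ℝ) ^ (2 * k) * B := ⟨_, rfl⟩
  have hb1 : 2 * (E0 * B) ≤ B' := by
    have h1 : (E0 : ℝ) ≤ (E0 : ℝ) ^ (2 * k) := le_self_pow₀ hE0r (by omega)
    rw [hB', mul_assoc]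
    gcongr
  have hb0 : B ≤ E0 * B := le_mul_of_one_le_left hB0.le hE0r
  have hb2 : K * B' ≤ K * C1 * B * (E0 : ℝ) ^ (2 * k + 1) := by
    have h1 : (E0 : ℝ) ^ (2 * k) ≤ (E0 : ℝ) ^ (2 * k + 1) := pow_le_pow_right₀ hE0r (by omega)
    calc K * B' = K * C1 * B * (E0 : ℝ) ^ (2 * k) := by rw [hB']; ring
      _ ≤ _ := by gcongr
  have hB'0 : 0 < B' := by rw [hB']; positivity
  rw [swap4 (Icc 1 Q) (fun q => (range q).filter (Nat.Coprime q)) PP.powerset (ZS f)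
    (fun S r => (w S r : ℂ)) (fun S r a q => GamL (fer f (∏ p ∈ S, p) (r : ℤ)) (u + v * r)
      (v * ∏ p ∈ S, p) a q) (fun a q => Bil G N' H ((a : ℝ) / q)) c
    fun q hq a => hexp q (mem_Icc.1 hq).1 a]
  refine ie_sum f PP hPP E0 δ _ hδ.le hX0 w _ hw (fun S hS r hr h0 hSE => ?_)
    fun S hS r hr h0 => ?_
  · have hg := hcop S hS r hr h0
    have hm : 0 < ∏ p ∈ S, p := prod_pos fun p hp => (hPP p (mem_powerset.1 hS hp)).pos
    have hrm : r < ∏ p ∈ S, p := mem_range.1 (mem_filter.1 hr).1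
    obtain ⟨m, hmdef⟩ : ∃ m : ℕ, m = ∏ p ∈ S, p := ⟨_, rfl⟩
    rw [← hmdef] at hm hSE hrm hg ⊢
    have hmr : (m : ℝ) ≤ E0 := by exact_mod_cast hSE
    have hrr : (r : ℝ) ≤ E0 := by exact_mod_cast hrm.le.trans hSE
    rw [← mul_assoc]
    refine hAN (fer f m (r : ℤ)) (u + v * r) (v * m) N' H Q δ B' G
      (by rw [fer_natDegree f m hm, hdeg]) (fer_lead f m hm _ hlead) hδ hδ1
      (by linarith only [hB, hb0, hb1]) (fun j => ?_) ?_ (Nat.mul_pos hv hm) ?_ hg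
      (by linarith only [hlog, hb0, hb1, hB0]) h8 h16 ?_ ?_ hGs ?_
    · refine (fer_coeff_le f m E0 (r : ℤ) B hSE (by positivity) (by exact_mod_cast hrm) hcoef
        hB j).trans (le_of_eq ?_)
      rw [hdeg, hB', hC1]
    · push_cast
      have h1 : (v : ℝ) * r ≤ B * E0 := mul_le_mul hvB hrr (Nat.cast_nonneg _) hB0.le
      refine (abs_add_le _ _).trans ?_
      rw [abs_of_nonneg (show (0 : ℝ) ≤ v * r by positivity)]
      linarith only [hu, h1, hb0, hb1]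
    · push_cast
      have h1 : (v : ℝ) * m ≤ B * E0 := mul_le_mul hvB hmr (Nat.cast_nonneg _) hB0.le
      linarith only [h1, hb0, hb1, hB0]
    · refine le_trans (pow_le_pow_left₀ (by positivity) ?_ _) hQ
      exact div_le_div_of_nonneg_right hb2 hδ.le
    · refine le_trans (pow_le_pow_left₀ (by positivity) ?_ _) hN
      exact div_le_div_of_nonneg_right (mul_le_mul_of_nonneg_right hb2 (Nat.cast_nonneg _)) hδ.le
    · intro n n' hn hn' x hx hp hnn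
      rw [fer_eval] at hnn
      refine hfree n n' hn hn' (m * x + r) ?_ ?_ ?_
      · have : 1 ≤ m * x := Nat.mul_pos hm hx
        omega
      · unfold PrL at hp ⊢
        rw [show u + (v : ℤ) * ((m * x + r : ℕ) : ℤ) = u + v * r + ((v * m : ℕ) : ℤ) * x by
          push_cast; ring]
        exact hp
      · rw [hnn]
        push_cast
        rfl
  · have hm : 0 < ∏ p ∈ S, p := prod_pos fun p hp => (hPP p (mem_powerset.1 hS hp)).pos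
    refine le_trans ?_ ((bil_sum G N' H Q hQ1 hQH hGs).trans (le_of_eq (mul_assoc _ _ _)))
    refine (norm_sum_le _ _).trans (sum_le_sum fun q hq => ?_)
    refine (norm_sum_le _ _).trans (sum_le_sum fun a _ => ?_)
    rw [norm_mul]
    exact mul_le_of_le_one_left (norm_nonneg _) (Vale.Agent.P042PU.norm_GamL_le _ _
      (Nat.mul_pos hv hm) (mem_Icc.1 hq).1 (hcop S hS r hr h0))

end Vale.Agent.P042PH
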