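import Vale.Agent.P042PH.AnW
import Vale.Agent.P042PU.Exp

/-! P042P: the circle method over primes with sieve weights. -/

set_option autoImplicit false
set_option linter.all false

namespace Vale.Agent.P042PH

open Polynomial Finset Vale.Agent.P042 Vale.Agent.P042.SS Vale.Agent.P042PA
open Vale.Agent.P042.H74 (ZS)
open Vale.Agent.P042P (PL pr)

/-- expansion of the weighted complete sums -/
def ExpP : Prop := ∀ (F : PL) (PP : Finset ℕ) (v : ℕ), (∀ p ∈ PP, p.Prime) → F.v = v → 1 ≤ v →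
  Int.gcd F.u v = 1 → ∃ w : Finset ℕ → ℕ → ℝ,
    (∀ S ∈ PP.powerset, ∀ r ∈ ZS F.toPolynomial S, |w S r| ≤ 1 / ((∏ p ∈ S, p : ℕ) : ℝ)) ∧
    (∀ S ∈ PP.powerset, ∀ r ∈ ZS F.toPolynomial S, w S r ≠ 0 →
      Int.gcd (F.u + v * r) ((v * ∏ p ∈ S, p : ℕ) : ℤ) = 1) ∧
    ∀ q : ℕ, 1 ≤ q → ∀ a : ℤ, Vale.Agent.P042P.GamW F PP a q =
      ∑ S ∈ PP.powerset, ∑ r ∈ ZS F.toPolynomial S, (w S r : ℂ) *
        GamL (H74.fer F.toPolynomial (∏ p ∈ S, p) (r : ℤ)) (F.u + v * r) (v * ∏ p ∈ S, p) a q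

/-- the statement of the circle method with sieve weights -/
def AnWStmt : Prop := ∀ k : ℕ, 2 ≤ k → ∃ (E : ℕ) (K : ℝ), 1 ≤ E ∧ 1 ≤ K ∧
    ∀ (F : PL) (PP : Finset ℕ) (N' H Q E0 : ℕ) (δ B : ℝ) (G : ℤ → ℝ),
    F.natDegree = k → 0 < F.leadingCoeff → 0 < δ → δ ≤ 1 → 1 ≤ B →
    (∀ j : ℕ, |(F.coeff j : ℝ)| ≤ B) → IsCoprime F.u F.v → 1 ≤ F.v → |(F.u : ℝ)| ≤ B →
    (F.v : ℝ) ≤ B → Real.log N' ≤ B → (∀ p ∈ PP, p.Prime) → 1 ≤ E0 → 8 * H ≤ N' → N' ≤ 16 * H →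
    (K * B * (E0 : ℝ) ^ (2 * k + 1) / δ) ^ E ≤ (Q : ℝ) →
    (K * B * (E0 : ℝ) ^ (2 * k + 1) * Q / δ) ^ E ≤ (N' : ℝ) → (Q : ℝ) ^ 4 ≤ H →
    (∀ n, G n ≠ 0 → 1 ≤ n ∧ n ≤ N') →
    (∀ n m : ℤ, G n ≠ 0 → G m ≠ 0 → ∀ x : ℕ, 1 ≤ x → pr F x → n - m = F.eval (x : ℤ) → n = m) →
    ‖∑ q ∈ Icc 1 Q, ∑ a ∈ (range q).filter (Nat.Coprime q),
      Vale.Agent.P042P.GamW F PP a q * Bil G N' H ((a : ℝ) / q)‖ ≤
      (E0 * δ + 2 * ∑ S ∈ PP.powerset.filter (fun S => E0 < ∏ p ∈ S, p),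
        ((ZS F.toPolynomial S).card : ℝ) / ((∏ p ∈ S, p : ℕ) : ℝ)) *
        ((H : ℝ) ^ 2 * ∑ n ∈ Icc (1 : ℤ) N', G n ^ 2)

lemma pr_of_PrL (F : PL) (v x : ℕ) (hv : F.v = v) (h : PrL F.u v x) : pr F x := by
  refine ⟨_, h, ?_⟩
  have h0 := h.pos
  rw [hv]
  omega

theorem anW_P (hA : AnPStmt) (hX : ExpP) : AnWStmt := by
  intro k hk
  obtain ⟨E, K, hE, hK, h⟩ := anW_abs hA k hk
  refine ⟨E, K, hE, hK, ?_⟩
  intro F PP N' H Q E0 δ B G hdeg hlead hδ hδ1 hB hcoef hcop hv hu hvB hlog hPP hE0 h8 h16 hQ hN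
    hQH hGs hfree
  obtain ⟨v, hvv⟩ := Int.eq_ofNat_of_zero_le (show 0 ≤ F.v by omega)
  have hv1 : 1 ≤ v := by omega
  obtain ⟨w, hw1, hw2, hw3⟩ := hX F PP v hPP hvv hv1 (Int.isCoprime_iff_gcd_eq_one.1 (hvv ▸ hcop))
  exact h F.toPolynomial F.u v PP (fun a q => Vale.Agent.P042P.GamW F PP a q) w N' H Q E0 δ B G
    hdeg hlead hδ hδ1 hB hcoef hu hv1 (by rw [hvv] at hvB; exact_mod_cast hvB) hlog hPP hE0 h8 h16
    hQ hN hQH hGs
    (fun n m hn hm x hx hp hnm => hfree n m hn hm x hx (pr_of_PrL F v x hvv hp) hnm) hw1 hw2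
    fun q hq a => hw3 q hq a

open Vale.Agent.P042PU in
theorem expP_holds : ExpP := by
  classical
  intro F PP v hPP hFv hv hg
  refine ⟨fun S r => if r ∈ ZSP F.toPolynomial F.u v S then (-1) ^ S.card * cf v PP S else 0,
    fun S hS r _ => ?_, fun S hS r _ h0 => ?_, fun q hq a => ?_⟩
  · dsimp only
    split_ifs
    · rw [abs_mul, abs_pow, abs_neg, abs_one, one_pow, one_mul, abs_of_nonneg (cf_nonneg _ _ _)]
      exact cf_le hPP (mem_powerset.1 hS) hv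
    · rw [abs_zero]
      positivity
  · dsimp only at h0
    exact ZSP_gcd hg (by_contra fun h => h0 (if_neg h))
  · rw [GamW_expandP F hFv hv hg hPP a hq]
    refine sum_congr rfl fun S _ => ?_
    rw [← sum_subset (ZSP_sub (f := F.toPolynomial) (u := F.u) (v := v) (S := S))
      (fun r _ h => by dsimp only; rw [if_neg h, Complex.ofReal_zero, zero_mul])]
    exact sum_congr rfl fun r hr => by dsimp only; rw [if_pos hr]

/-- **circle method over primes with sieve weights** -/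
theorem anW_of (hA : AnPStmt) : AnWStmt := anW_P hA expP_holds

end Vale.Agent.P042PH
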