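import Vale.Agent.P042PA.Defs

/-! P042P, block FOU over primes. -/

set_option autoImplicit false
set_option linter.all false

namespace Vale.Agent.P042PH

open Polynomial Finset Vale.Agent.P042 Vale.Agent.P042.SS Vale.Agent.P042.SS.AN Vale.Agent.P042PA

/-- the Weyl sum side vanishes -/
theorem side_SP {f : ℤ[X]} {u : ℤ} {v N' H x0 X T : ℕ} {G : ℤ → ℝ} (hx0 : 1 ≤ x0) (hT : 0 < T)
    (hsupp : ∀ n, G n ≠ 0 → 1 ≤ n ∧ n ≤ (N' : ℤ))
    (hfree : ∀ n m : ℤ, G n ≠ 0 → G m ≠ 0 → ∀ x : ℕ, 1 ≤ x → PrL u v x →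
      n - m = f.eval (x : ℤ) → n = m)
    (hTx : ∀ x ∈ Ico x0 X, |fv f x| + N' ≤ T) :
    ∑ j ∈ range T, SxP f u v H x0 X ((j : ℝ) / T) * ((‖Gh G N' ((j : ℝ) / T)‖ ^ 2 : ℝ) : ℂ) = 0 := by
  unfold SxP
  simp only [Finset.sum_mul]
  rw [Finset.sum_comm]
  apply Finset.sum_eq_zero
  intro x hx
  have h1 : ∀ j ∈ range T, ((gp f x * vt H (fv f x) * wP u v x : ℝ) : ℂ) *
      e ((j : ℝ) / T * (fv f x : ℝ)) * ((‖Gh G N' ((j : ℝ) / T)‖ ^ 2 : ℝ) : ℂ) =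
      ((gp f x * vt H (fv f x) * wP u v x : ℝ) : ℂ) *
        (e ((fv f x : ℝ) * ((j : ℝ) / T)) * ((‖Gh G N' ((j : ℝ) / T)‖ ^ 2 : ℝ) : ℂ)) := by
    intro j _
    rw [mul_comm ((j : ℝ) / T), mul_assoc]
  rw [Finset.sum_congr rfl h1, ← Finset.mul_sum, corr hsupp hT _ (hTx x hx)]
  by_cases hv : vt H (fv f x) = 0
  · rw [hv]
    simp
  by_cases hp : ¬ PrL u v x
  · rw [wP, if_neg hp]
    simp
  · rw [not_not] at hp
    have hpos := vt_pos hv
    have hR : Rc G N' (fv f x) = 0 := by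
      unfold Rc
      apply Finset.sum_eq_zero
      intro n _
      by_contra hne
      rw [mul_eq_zero, not_or] at hne
      have hx1 : 1 ≤ x := hx0.trans (Finset.mem_Ico.1 hx).1
      have := hfree n (n - fv f x) hne.1 hne.2 x hx1 hp (by unfold fv; ring)
      omega
    rw [hR]
    simp

/-- block FOU -/
theorem fouP_holds : FouPStmt := by
  intro f u v N' H Q x0 X c δ G hH hN hx0 hδ hsupp hfree hpt
  set T : ℕ := N' + 4 * H + ∑ x ∈ Ico x0 X, (fv f x).natAbs + 1 with hTdef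
  have hT : 0 < T := by omega
  have hTr : (0 : ℝ) < T := by exact_mod_cast hT
  have hHr : (0 : ℝ) < H := by exact_mod_cast hH
  have hTx : ∀ x ∈ Ico x0 X, |fv f x| + N' ≤ T := by
    intro x hx
    have h1 : (fv f x).natAbs ≤ ∑ x ∈ Ico x0 X, (fv f x).natAbs :=
      Finset.single_le_sum (f := fun x => (fv f x).natAbs) (fun _ _ => Nat.zero_le _) hx
    have h2 : |fv f x| = (((fv f x).natAbs : ℕ) : ℤ) := Int.abs_eq_natAbs _
    rw [h2]
    omega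
  have hS := side_SP (H := H) (X := X) (T := T) hx0 hT hsupp hfree hTx
  have hV : ∀ θ : ℝ, ∑ j ∈ range T, Vk H ((j : ℝ) / T - θ) *
      ((‖Gh G N' ((j : ℝ) / T)‖ ^ 2 : ℝ) : ℂ) = T * Bil G N' H θ / (H : ℂ) ^ 2 :=
    fun θ => side_V (by omega) hT hsupp (by omega) θ
  have hM : ∑ j ∈ range T, MnC c H Q ((j : ℝ) / T) * ((‖Gh G N' ((j : ℝ) / T)‖ ^ 2 : ℝ) : ℂ) =
      (T / (H : ℂ) ^ 2) * ∑ q ∈ Icc 1 Q, ∑ a ∈ (range q).filter (Nat.Coprime q),
        c a q * Bil G N' H ((a : ℝ) / q) := by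
    unfold MnC
    simp only [Finset.sum_mul]
    rw [Finset.sum_comm, Finset.mul_sum]
    refine Finset.sum_congr rfl fun q _ => ?_
    rw [Finset.sum_comm, Finset.mul_sum]
    refine Finset.sum_congr rfl fun a _ => ?_
    simp only [mul_assoc]
    rw [← Finset.mul_sum, hV]
    ring
  have hdiff : ∑ j ∈ range T, (SxP f u v H x0 X ((j : ℝ) / T) - MnC c H Q ((j : ℝ) / T)) *
      ((‖Gh G N' ((j : ℝ) / T)‖ ^ 2 : ℝ) : ℂ) =
      -((T / (H : ℂ) ^ 2) * ∑ q ∈ Icc 1 Q, ∑ a ∈ (range q).filter (Nat.Coprime q),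
        c a q * Bil G N' H ((a : ℝ) / q)) := by
    simp only [sub_mul]
    rw [Finset.sum_sub_distrib, hS, hM, zero_sub]
  have hnorm : ‖∑ j ∈ range T, (SxP f u v H x0 X ((j : ℝ) / T) - MnC c H Q ((j : ℝ) / T)) *
      ((‖Gh G N' ((j : ℝ) / T)‖ ^ 2 : ℝ) : ℂ)‖ ≤
      δ * (T * ∑ n ∈ Icc (1 : ℤ) N', G n ^ 2) := by
    rw [← parseval_Gh hsupp hT (by omega), Finset.mul_sum]
    refine (norm_sum_le _ _).trans (Finset.sum_le_sum fun j _ => ?_)
    rw [norm_mul, Complex.norm_real, Real.norm_eq_abs, abs_of_nonneg (by positivity)]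
    exact mul_le_mul_of_nonneg_right (hpt _) (by positivity)
  rw [hdiff, norm_neg, norm_mul, norm_div, norm_pow, Complex.norm_natCast,
    Complex.norm_natCast] at hnorm
  set W := ‖∑ q ∈ Icc 1 Q, ∑ a ∈ (range q).filter (Nat.Coprime q),
      c a q * Bil G N' H ((a : ℝ) / q)‖ with hW
  set E2 := ∑ n ∈ Icc (1 : ℤ) N', G n ^ 2 with hE2
  have h1 : (T : ℝ) / (H : ℝ) ^ 2 * W = T * (W / (H : ℝ) ^ 2) := by ring
  rw [h1] at hnorm
  have h2 : W / (H : ℝ) ^ 2 ≤ δ * E2 := by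
    have h3 : (T : ℝ) * (W / (H : ℝ) ^ 2) ≤ T * (δ * E2) := by linarith
    exact le_of_mul_le_mul_left h3 hTr
  rw [div_le_iff₀ (by positivity)] at h2
  linarith

end Vale.Agent.P042PH
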