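import Vale.Agent.P042.Bdl.B1

/-! P042P, block A2: the lemma of Vinogradov for polynomials, with the gain. -/

set_option autoImplicit false
set_option linter.all false

namespace Vale.Agent.P042PH

open Finset Polynomial Vale.Agent.P042

lemma sq_card_le (S : Finset ℕ) (M : ℕ) (hS : S ⊆ range M) :
    (S.card : ℝ) ^ 2 ≤ M + 2 * ∑ h ∈ Ico 1 M, ((S.filter fun n => n + h ∈ S).card : ℝ) := by
  classical
  have h := diff_sq (fun n => if n ∈ S then (1 : ℂ) else 0)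
    (fun n => by split_ifs <;> simp) M
  have e1 : ∑ n ∈ range M, (if n ∈ S then (1 : ℂ) else 0) = S.card := by
    rw [Finset.sum_ite_mem, Finset.inter_eq_right.2 hS]
    simp
  rw [e1, Complex.norm_natCast] at h
  refine h.trans ?_
  have h2 : ∀ h ∈ Ico 1 M, ‖∑ n ∈ range (M - h), (if n + h ∈ S then (1 : ℂ) else 0) *
      (starRingEnd ℂ) (if n ∈ S then (1 : ℂ) else 0)‖ ≤
      ((S.filter fun n => n + h ∈ S).card : ℝ) := by
    intro h _
    have e2 : ∑ n ∈ range (M - h), (if n + h ∈ S then (1 : ℂ) else 0) *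
        (starRingEnd ℂ) (if n ∈ S then (1 : ℂ) else 0) =
        (((range (M - h)).filter fun n => n ∈ S ∧ n + h ∈ S).card : ℂ) := by
      rw [Finset.card_filter]
      push_cast
      refine Finset.sum_congr rfl fun n _ => ?_
      by_cases h1 : n ∈ S <;> by_cases h2 : n + h ∈ S <;> simp [h1, h2]
    rw [e2, Complex.norm_natCast]
    refine Nat.cast_le.2 (Finset.card_le_card fun n hn => ?_)
    rw [Finset.mem_filter] at hn ⊢
    exact hn.2
  have := Finset.sum_le_sum h2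
  linarith only [this]

/-- many shifts keep many points -/
lemma shifts (S : Finset ℕ) (M : ℕ) (Q : ℝ) (hQ : 2 ≤ Q) (hS : S ⊆ range M)
    (hc : (M : ℝ) ≤ Q * S.card) (hM : Q ^ 3 ≤ M) :
    (M : ℝ) ≤ Q ^ 5 * (((Ico 1 M).filter fun h =>
      (M : ℝ) ≤ Q ^ 5 * ((S.filter fun n => n + h ∈ S).card : ℝ)).card : ℝ) := by
  classical
  have hQ0 : (0 : ℝ) < Q := by linarith only [hQ]
  have hM0 : (0 : ℝ) < M := lt_of_lt_of_le (by positivity) hM
  set w : ℕ → ℝ := fun h => ((S.filter fun n => n + h ∈ S).card : ℝ) with hw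
  have hwM : ∀ h, w h ≤ M := fun h => by
    have := (Finset.card_le_card (Finset.filter_subset (fun n => n + h ∈ S) S)).trans
      (Finset.card_le_card hS)
    rw [Finset.card_range] at this
    exact Nat.cast_le.2 this
  have hdiff : (S.card : ℝ) ^ 2 ≤ M + 2 * ∑ h ∈ Ico 1 M, w h := sq_card_le S M hS
  have h8 : (8 : ℝ) ≤ Q ^ 3 := by
    calc (8 : ℝ) = 2 ^ 3 := by norm_num
      _ ≤ Q ^ 3 := pow_le_pow_left₀ (by norm_num) hQ 3
  have h8Q : 8 * Q ^ 2 ≤ Q ^ 5 := by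
    calc 8 * Q ^ 2 ≤ Q ^ 3 * Q ^ 2 := mul_le_mul_of_nonneg_right h8 (by positivity)
      _ = Q ^ 5 := by ring
  have hsq : (M : ℝ) ^ 2 ≤ Q ^ 2 * (S.card : ℝ) ^ 2 := by
    rw [← mul_pow]
    exact pow_le_pow_left₀ hM0.le hc 2
  have hmain : (M : ℝ) ^ 2 ≤ 4 * Q ^ 2 * ∑ h ∈ Ico 1 M, w h := by
    have h1 := mul_le_mul_of_nonneg_left hdiff (show 0 ≤ Q ^ 2 by positivity)
    have h3 : 2 * Q ^ 2 ≤ (M : ℝ) := by
      refine le_trans ?_ hM
      calc 2 * Q ^ 2 ≤ Q * Q ^ 2 := mul_le_mul_of_nonneg_right hQ (by positivity)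
        _ = Q ^ 3 := by ring
    have h2 := mul_le_mul_of_nonneg_right h3 hM0.le
    nlinarith only [hsq, h1, h2]
  set S0 : Finset ℕ := (Ico 1 M).filter (fun h => (M : ℝ) ≤ Q ^ 5 * w h) with hS0
  have h1 : ∑ h ∈ Ico 1 M, w h ≤ ∑ h ∈ Ico 1 M, (M / Q ^ 5 +
      if (M : ℝ) ≤ Q ^ 5 * w h then (M : ℝ) else 0) := by
    refine Finset.sum_le_sum fun h _ => ?_
    have h0 : 0 ≤ (M : ℝ) / Q ^ 5 := by positivity
    split_ifs with hh
    · linarith only [hwM h, h0]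
    · rw [not_le] at hh
      rw [add_zero, le_div_iff₀ (by positivity)]
      linarith only [hh]
  rw [Finset.sum_add_distrib, ← Finset.sum_filter, Finset.sum_const, Finset.sum_const,
    nsmul_eq_mul, nsmul_eq_mul, ← hS0, Nat.card_Ico] at h1
  have h2 : ((M - 1 : ℕ) : ℝ) * (M / Q ^ 5) ≤ M * (M / (8 * Q ^ 2)) := by
    refine mul_le_mul (by exact_mod_cast Nat.sub_le M 1) ?_ (by positivity) hM0.le
    exact div_le_div_of_nonneg_left hM0.le (by positivity) h8Q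
  have h3 : (M : ℝ) ^ 2 ≤ 4 * Q ^ 2 * (M * (M / (8 * Q ^ 2)) + S0.card * M) :=
    hmain.trans (mul_le_mul_of_nonneg_left (by linarith only [h1, h2]) (by positivity))
  have h4 : 4 * Q ^ 2 * (M * (M / (8 * Q ^ 2)) + S0.card * M) =
      M ^ 2 / 2 + 4 * Q ^ 2 * S0.card * M := by
    field_simp
    ring
  rw [h4] at h3
  have h5 : (M : ℝ) * M ≤ (8 * Q ^ 2 * S0.card) * M := by nlinarith only [h3]
  exact (le_of_mul_le_mul_right h5 hM0).trans
    (mul_le_mul_of_nonneg_right h8Q (Nat.cast_nonneg _))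

/-- pigeonhole on the multiplier, then the linear lemma -/
lemma pig_vino (α τ Q : ℝ) (D e M : ℕ) (S0 : Finset ℕ) (hQ : 2 ≤ Q) (hτ : 0 ≤ τ)
    (hS : S0 ⊆ range M) (hc : (M : ℝ) ≤ Q ^ e * S0.card)
    (hg : ∀ h ∈ S0, ∃ s : ℕ, 1 ≤ s ∧ (s : ℝ) ≤ Q ^ D ∧ nz (h * (s * α)) ≤ τ)
    (h1 : Q ^ (D + e + 3) * τ ≤ 1) (h2 : Q ^ (D + e + 2) ≤ M) :
    ∃ q : ℕ, 1 ≤ q ∧ (q : ℝ) ≤ Q ^ (2 * D + e + 1) ∧
      nz (q * α) * M ≤ Q ^ (2 * D + 2 * e + 6) * τ := by
  classical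
  have hQ0 : (0 : ℝ) < Q := by linarith only [hQ]
  have hQ1 : (1 : ℝ) ≤ Q := by linarith only [hQ]
  choose! sf hsf using hg
  set K : ℕ := ⌊Q ^ D⌋₊ with hK
  have hKle : (K : ℝ) ≤ Q ^ D := Nat.floor_le (by positivity)
  have hK1 : 1 ≤ K := by
    apply Nat.le_floor
    simpa only [Nat.cast_one] using one_le_pow₀ (n := D) hQ1
  have hmaps : ∀ h ∈ S0, sf h ∈ Icc 1 K := fun h hh =>
    Finset.mem_Icc.2 ⟨(hsf h hh).1, Nat.le_floor (hsf h hh).2.1⟩
  have hK0 : (0 : ℝ) < K := by exact_mod_cast hK1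
  obtain ⟨s, hsK, hscard⟩ := Finset.exists_le_card_fiber_of_nsmul_le_card_of_maps_to
    (b := (S0.card : ℝ) / K) hmaps ⟨1, Finset.mem_Icc.2 ⟨le_refl _, hK1⟩⟩ (by
      rw [Nat.card_Icc, nsmul_eq_mul]
      simp only [Nat.add_sub_cancel]
      rw [mul_div_cancel₀ _ hK0.ne'])
  rw [Finset.mem_Icc] at hsK
  set S1 : Finset ℕ := S0.filter (fun h => sf h = s) with hS1
  set δ : ℝ := (Q ^ (D + e))⁻¹ with hδ
  have hδ0 : 0 < δ := by positivity
  have hδ1 : δ ≤ 1 := inv_le_one_of_one_le₀ (one_le_pow₀ hQ1)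
  have hS1card : δ * M ≤ S1.card := by
    refine le_trans ?_ hscard
    rw [hδ, inv_mul_le_iff₀ (by positivity), mul_div_assoc', le_div_iff₀ hK0]
    calc (M : ℝ) * K ≤ (Q ^ e * S0.card) * Q ^ D := mul_le_mul hc hKle hK0.le (by positivity)
      _ = _ := by rw [pow_add]; ring
  have hgood : ∀ h ∈ S1, nz (h * (s * α)) ≤ τ := by
    intro h hh
    rw [hS1, Finset.mem_filter] at hh
    have := (hsf h hh.1).2.2
    rwa [hh.2] at this
  have h8 : (8 : ℝ) ≤ Q ^ 3 := by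
    calc (8 : ℝ) = 2 ^ 3 := by norm_num
      _ ≤ Q ^ 3 := pow_le_pow_left₀ (by norm_num) hQ 3
  have hσδ : τ ≤ δ / 8 := by
    rw [hδ, le_div_iff₀ (by norm_num), ← one_div, le_div_iff₀ (by positivity)]
    calc τ * 8 * Q ^ (D + e) ≤ τ * Q ^ 3 * Q ^ (D + e) := by gcongr
      _ = Q ^ (D + e + 3) * τ := by ring
      _ ≤ 1 := h1
  have hδM : 2 < δ * M := by
    rw [hδ, inv_mul_eq_div, lt_div_iff₀ (by positivity)]
    have h0 : 0 < Q ^ (D + e) := by positivity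
    have h4 : (4 : ℝ) ≤ Q ^ 2 := by nlinarith only [hQ]
    calc 2 * Q ^ (D + e) < 4 * Q ^ (D + e) := by linarith only [h0]
      _ ≤ Q ^ 2 * Q ^ (D + e) := mul_le_mul_of_nonneg_right h4 h0.le
      _ = Q ^ (D + e + 2) := by ring
      _ ≤ M := h2
  obtain ⟨q, hq1, hq2, hq3⟩ := vino (s * α) τ δ M S1 ((Finset.filter_subset _ _).trans hS) hτ
    hgood hδ0 hδ1 hS1card hσδ hδM
  refine ⟨q * s, Nat.mul_pos hq1 hsK.1, ?_, ?_⟩
  · rw [hδ, inv_mul_le_iff₀ (by positivity)] at hq2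
    have hsle : (s : ℝ) ≤ Q ^ D := le_trans (by exact_mod_cast hsK.2) hKle
    push_cast
    calc (q : ℝ) * s ≤ (Q ^ (D + e) * Q) * Q ^ D :=
          mul_le_mul (hq2.trans (mul_le_mul_of_nonneg_left hQ (by positivity))) hsle
            (Nat.cast_nonneg _) (by positivity)
      _ = _ := by ring
  · have h48 : (48 : ℝ) ≤ Q ^ 6 := by
      calc (48 : ℝ) ≤ 2 ^ 6 := by norm_num
        _ ≤ Q ^ 6 := pow_le_pow_left₀ (by norm_num) hQ 6
    have e1 : ((q * s : ℕ) : ℝ) * α = q * (s * α) := by push_cast; ring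
    have e2 : δ * Q ^ (D + e) = 1 := inv_mul_cancel₀ (by positivity)
    rw [e1]
    calc nz (q * (s * α)) * M = nz (q * (s * α)) * M * (δ * Q ^ (D + e)) ^ 2 := by
          rw [e2]; ring
      _ = nz (q * (s * α)) * (δ ^ 2 * M) * (Q ^ (D + e)) ^ 2 := by ring
      _ ≤ (Q ^ 6 * τ) * (Q ^ (D + e)) ^ 2 :=
          mul_le_mul_of_nonneg_right (hq3.trans (mul_le_mul_of_nonneg_right h48 hτ))
            (by positivity)
      _ = _ := by ring

/-- **Polynomial lemma of Vinogradov with gain.** -/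
theorem vinoP (k : ℕ) : ∃ C : ℕ, ∀ g : ℝ[X], g.natDegree ≤ k → ∀ Q σ : ℝ, 2 ≤ Q → 0 ≤ σ →
    ∀ (M : ℕ) (S : Finset ℕ), S ⊆ range M → (M : ℝ) ≤ Q * S.card →
    (∀ n ∈ S, nz (g.eval (n : ℝ)) ≤ σ) → Q ^ C ≤ M → Q ^ C * σ ≤ 1 →
    ∃ s : ℕ, 1 ≤ s ∧ (s : ℝ) ≤ Q ^ C ∧ nz (s * g.coeff k) * (M : ℝ) ^ k ≤ Q ^ C * σ := by
  classical
  induction k with
  | zero =>
    refine ⟨0, fun g hg Q σ hQ hσ M S hS hc hgood hM _ => ⟨1, le_rfl, by simp, ?_⟩⟩
    have hne : S.Nonempty := by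
      rw [Finset.nonempty_iff_ne_empty]
      rintro rfl
      simp only [Finset.card_empty, Nat.cast_zero, mul_zero, pow_zero] at hc hM
      linarith only [hc, hM]
    obtain ⟨n, hn⟩ := hne
    have h := hgood n hn
    rw [eq_C_of_natDegree_le_zero hg, eval_C] at h
    simpa using h
  | succ k ih =>
    obtain ⟨C, hC⟩ := ih
    refine ⟨15 * C + 17 + k, fun g hg Q σ hQ hσ M S hS hc hgood hM hσ1 => ?_⟩
    have hQ0 : (0 : ℝ) < Q := by linarith only [hQ]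
    have hQ1 : (1 : ℝ) ≤ Q := by linarith only [hQ]
    have powle : ∀ {x y : ℕ}, x ≤ y → Q ^ x ≤ Q ^ y := fun h => pow_le_pow_right₀ hQ1 h
    have hM1 : (1 : ℝ) ≤ M := (one_le_pow₀ hQ1).trans hM
    have hM0 : (0 : ℝ) < M := by linarith only [hM1]
    have hsm : ∀ x : ℕ, x ≤ 15 * C + 17 + k → Q ^ x * σ ≤ 1 := fun x hx =>
      (mul_le_mul_of_nonneg_right (powle hx) hσ).trans hσ1
    have hsh := shifts S M Q hQ hS hc ((powle (by omega)).trans hM)
    set S0 := (Ico 1 M).filter fun h =>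
      (M : ℝ) ≤ Q ^ 5 * ((S.filter fun n => n + h ∈ S).card : ℝ) with hS0
    have hMk : (1 : ℝ) ≤ (M : ℝ) ^ k := one_le_pow₀ hM1
    have hIH : ∀ h ∈ S0, ∃ s : ℕ, 1 ≤ s ∧ (s : ℝ) ≤ Q ^ (5 * C) ∧
        nz (h * (s * ((k + 1) * g.coeff (k + 1)))) ≤ Q ^ (5 * C + 1) * σ / (M : ℝ) ^ k := by
      intro h hh
      rw [hS0, Finset.mem_filter] at hh
      obtain ⟨s, hs1, hs2, hs3⟩ := hC (dd h g) (dd_natDegree _ _ _ hg) (Q ^ 5) (Q * σ)
        (hQ.trans (by simpa only [pow_one] using powle (show 1 ≤ 5 by norm_num)))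
        (by positivity) M _ ((Finset.filter_subset _ _).trans hS) hh.2 (by
          intro n hn
          rw [Finset.mem_filter] at hn
          rw [dd_eval]
          have a1 := hgood _ hn.1
          have a2 := hgood _ hn.2
          push_cast at a2
          have a3 := mul_le_mul_of_nonneg_right hQ hσ
          linarith only [nz_sub_le (g.eval ((n : ℝ) + h)) (g.eval (n : ℝ)), a1, a2, a3])
        (by rw [← pow_mul]; exact (powle (by omega)).trans hM)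
        (by rw [← pow_mul, ← mul_assoc, ← pow_succ]; exact hsm _ (by omega))
      rw [← pow_mul] at hs2 hs3
      refine ⟨s, hs1, hs2, ?_⟩
      rw [dd_coeff_top _ _ _ hg, ← mul_assoc (Q ^ (5 * C)), ← pow_succ] at hs3
      rw [le_div_iff₀ (by positivity), show (h : ℝ) * (s * ((k + 1) * g.coeff (k + 1))) =
        s * ((k + 1) * h * g.coeff (k + 1)) by ring]
      exact hs3
    obtain ⟨q, hq1, hq2, hq3⟩ := pig_vino ((k + 1) * g.coeff (k + 1)) _ Q (5 * C) 5 M S0 hQ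
      (by positivity) (fun h hh => by
        rw [hS0, Finset.mem_filter, Finset.mem_Ico] at hh
        exact Finset.mem_range.2 hh.1.2) hsh hIH (by
        refine le_trans (mul_le_mul_of_nonneg_left (div_le_self (by positivity) hMk)
          (by positivity)) ?_
        rw [← mul_assoc, ← pow_add]
        exact hsm _ (by omega)) ((powle (by omega)).trans hM)
    refine ⟨q * (k + 1), Nat.mul_pos hq1 (by omega), ?_, ?_⟩
    · have hkle : ((k : ℝ) + 1) ≤ Q ^ (k + 1) := by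
        have h1 : k + 1 ≤ 2 ^ (k + 1) := Nat.lt_two_pow_self.le
        calc ((k : ℝ) + 1) ≤ 2 ^ (k + 1) := by exact_mod_cast h1
          _ ≤ Q ^ (k + 1) := pow_le_pow_left₀ (by norm_num) hQ _
      push_cast
      calc (q : ℝ) * (k + 1) ≤ Q ^ (2 * (5 * C) + 5 + 1) * Q ^ (k + 1) :=
            mul_le_mul hq2 hkle (by positivity) (by positivity)
        _ = Q ^ (2 * (5 * C) + 5 + 1 + (k + 1)) := (pow_add _ _ _).symm
        _ ≤ _ := powle (by omega)
    · have e1 : ((q * (k + 1) : ℕ) : ℝ) * g.coeff (k + 1) = q * ((k + 1) * g.coeff (k + 1)) := by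
        push_cast; ring
      rw [e1, pow_succ', ← mul_assoc]
      refine (mul_le_mul_of_nonneg_right hq3 (by positivity)).trans ?_
      rw [mul_assoc, div_mul_cancel₀ _ (by positivity), ← mul_assoc, ← pow_add]
      exact mul_le_mul_of_nonneg_right (powle (by omega)) hσ

/-- the monomial form -/
theorem vinoM (k : ℕ) (hk : 1 ≤ k) : ∃ C : ℕ, ∀ γ b Q σ : ℝ, 2 ≤ Q → 0 ≤ σ →
    ∀ (M : ℕ) (S : Finset ℕ), S ⊆ range M → (M : ℝ) ≤ Q * S.card →
    (∀ n ∈ S, nz (γ * (n : ℝ) ^ k - b) ≤ σ) → Q ^ C ≤ M → Q ^ C * σ ≤ 1 →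
    ∃ s : ℕ, 1 ≤ s ∧ (s : ℝ) ≤ Q ^ C ∧ nz (s * γ) * (M : ℝ) ^ k ≤ Q ^ C * σ := by
  obtain ⟨C, hC⟩ := vinoP k
  refine ⟨C, fun γ b Q σ hQ hσ M S hS hc hgood hM hσ1 => ?_⟩
  have h := hC (Polynomial.C γ * X ^ k - Polynomial.C b) (by
      refine (natDegree_sub_le _ _).trans (max_le (natDegree_C_mul_X_pow_le _ _) ?_)
      rw [natDegree_C]
      omega) Q σ hQ hσ M S hS hc (fun n hn => by simpa using hgood n hn) hM hσ1
  have e : (Polynomial.C γ * X ^ k - Polynomial.C b : ℝ[X]).coeff k = γ := by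
    rw [coeff_sub, coeff_C_mul_X_pow, if_pos rfl, coeff_C, if_neg (by omega), sub_zero]
  rwa [e] at h

end Vale.Agent.P042PH
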